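import Vale.Agent.N143X.Main
import Vale.Agent.N143X.Sharp

namespace Vale.Agent.Results.P143.A0Stability

open Vale.Agent.P143 Vale.Agent.N143 Vale.Agent.N143X MeasureTheory Filter
  Topology SimpleGraph unitInterval

universe u v

/-- (1) Under one rule commuting with all graph isomorphisms, weak convergence of strongly Rayleigh
edge sets or uniform spanning trees of finite subgraphs to the FUSF becomes convergence
in probability. (2) On Cayley graphs: invariant strongly Rayleigh laws converging weakly to the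
FUSF converge to it in probability as factors of the same labels. (3) The same for determinantal
limits: projections under weak convergence, all kernels under strong operator convergence.
(4) It fails for weak convergence to a determinantal law of a non-projection. -/
theorem result :
    (∃ Φ : EdgeRule.{u}, Φ.Invariant ∧
      ∀ (V : Type u) (G : SimpleGraph V), G.Connected → (∀ v, (G.neighborSet v).Finite) →
        (Measurable fun p : Measure (G.edgeSet → Bool) × (V → I) => Φ G p.1 p.2) ∧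
        ∀ μ ν, IsFUSF G μ → (∀ n, IsStronglyRayleigh (ν n) ∨
          ∃ H : G.Subgraph, H.Connected ∧ H.verts.Finite ∧ ν n = ust H) → WeakLimit ν μ →
          (∀ n, (iidLabels V).map (Φ G (ν n)) = ν n) ∧ (iidLabels V).map (Φ G μ) = μ ∧
          InProb (fun n => Φ G (ν n)) (Φ G μ)) ∧
    (∀ (Γ : Type u) [Group Γ] (S : Set Γ), S.Finite → Subgroup.closure S = ⊤ →
      ∀ μ ν, IsFUSF (mulCayley S) μ →
        (∀ n, IsStronglyRayleigh (ν n) ∧ IsInv (cayleyAct S) (ν n)) → WeakLimit ν μ →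
        JointLimit (cayleyAct S) ν μ) ∧
    (∀ (Γ : Type u) (X : Type v) [Group Γ] [MulAction Γ X] [Countable X] [DecidableEq X],
      (∀ x : X, Finite (MulAction.stabilizer Γ x)) →
      ∀ Q μ ν, IsDPP Q μ → IsInv (fun (γ : Γ) (x : X) => γ • x) μ →
        (∀ n, IsInv (fun (γ : Γ) (x : X) => γ • x) (ν n)) →
        ((IsProj Q ∧ (∀ n, IsStronglyRayleigh (ν n)) ∧ WeakLimit ν μ) ∨
          ∃ Qn, (∀ n, IsDPP (Qn n) (ν n)) ∧ StrongLimit Qn Q) →
        JointLimit (fun (γ : Γ) (x : X) => γ • x) ν μ) ∧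
    ∀ (Γ : Type u) [Group Γ] [Countable Γ] [Infinite Γ] [DecidableEq Γ],
      ∃ Q μ, ∃ ν : ℕ → Measure (Γ × Bool → Bool), IsDPP Q μ ∧
        IsInv (fun (γ : Γ) (p : Γ × Bool) => (γ * p.1, p.2)) μ ∧
        (∀ n, IsStronglyRayleigh (ν n) ∧
          IsInv (fun (γ : Γ) (p : Γ × Bool) => (γ * p.1, p.2)) (ν n)) ∧
        WeakLimit ν μ ∧ ¬ JointLimit (fun (γ : Γ) (p : Γ × Bool) => (γ * p.1, p.2)) ν μ := by
  refine ⟨?_, fun _ _ _ hS hcl _ _ h hν hlim => cayley_stable hS hcl h hν hlim,
    fun _ _ _ _ _ _ hΓ => group_part hΓ, fun Γ _ _ _ _ => sharp Γ⟩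
  obtain ⟨Φ, hΦ, H⟩ := graph_part.{u}
  refine ⟨Φ, hΦ, fun V G hc hG => ?_⟩
  obtain ⟨h1, h2, h3, h4⟩ := H V G hc hG
  refine ⟨h1, fun μ ν h hν hlim => ?_⟩
  have hs : ∀ n, IsStronglyRayleigh (ν n) := fun n => by
    rcases hν n with k | ⟨K, k1, k2, k3⟩
    · exact k
    · rw [k3]
      exact h3 K k1 k2
  exact ⟨fun n => h2 _ (hs n), h2 _ (h4 μ h).1, (h4 μ h).2 ν hs hlim⟩

end Vale.Agent.Results.P143.A0Stability
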