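import Vale.Agent.N143.Good
import Vale.Agent.N143.Garding
import Vale.Agent.N143.Ust
import Vale.Agent.N143.Det

namespace Vale.Agent.Results.P143.A0StronglyRayleigh

open Vale.Agent.P143 Vale.Agent.P143.Det Vale.Agent.N143 MeasureTheory
  SimpleGraph unitInterval

universe u v

/-- (1) Strongly Rayleigh measures are Hurwitz stable; free uniform spanning forests and
determinantal measures are strongly Rayleigh; some strongly Rayleigh measure is not determinantal.
(2) Invariant Hurwitz stable measures are factors of IID for every action with finite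
stabilizers. (3) One universal Borel rule for all Hurwitz stable measures. (4) One graph rule for
all Hurwitz stable measures on the edges of all locally finite graphs. -/
theorem result :
    ((∀ (X : Type v) (μ : Measure (X → Bool)), IsStronglyRayleigh μ → IsHurwitz μ) ∧
      (∀ (V : Type v) (G : SimpleGraph V) (μ : Measure (G.edgeSet → Bool)),
        IsFUSF G μ → IsStronglyRayleigh μ) ∧
      (∀ (X : Type v) [DecidableEq X] (μ : Measure (X → Bool)),
        IsDeterminantal μ → IsStronglyRayleigh μ) ∧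
      ∃ μ : Measure (Fin 5 → Bool), IsStronglyRayleigh μ ∧ ¬ IsDeterminantal μ) ∧
    (∀ (Γ : Type u) (X : Type v) [Group Γ] [Countable X] [MulAction Γ X],
      (∀ x : X, Finite (MulAction.stabilizer Γ x)) →
      ∀ μ : Measure (X → Bool), IsHurwitz μ → IsInvariant Γ μ → IsFactorOfIID Γ μ) ∧
    (∃ Φ : Measure (ℕ → Bool) → (ℕ → I) → ℕ → Bool, IsUniversalRule Φ ∧
      ∀ μ : Measure (ℕ → Bool), IsHurwitz μ → (iidLabels ℕ).map (Φ μ) = μ) ∧
    ∃ Φ : SimpleGraph ℕ → Measure (Sym2 ℕ → Bool) → (ℕ → I) → Sym2 ℕ → Bool,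
      IsGraphMeasureRule Φ ∧ ∀ G : SimpleGraph ℕ, (∀ v, (G.neighborSet v).Finite) →
        ∀ μ : Measure (Sym2 ℕ → Bool), IsHurwitz μ →
          (∀ e ∉ G.edgeSet, μ {ω | ω e = true} = 0) → (iidLabels ℕ).map (Φ G μ) = μ :=
  ⟨⟨fun _ _ h => h.isHurwitz, fun _ _ _ h => fusf_stronglyRayleigh h,
      fun _ _ _ h => det_stronglyRayleigh h,
      pairs, pairs_stronglyRayleigh, pairs_not_determinantal⟩,
    fun _ _ _ _ _ hst _ h hinv => h.isFactor hst hinv,
    ⟨H71.rul, ⟨H71.measurable_rul, fun τ μ U x => H71.rul_tr τ μ U x⟩, fun _ h => h.rul_law⟩,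
    H536.grul, ⟨H536.measurable_grul, H536.grul_map⟩, fun G hG _ h hA => h.grul_law G hG hA⟩

end Vale.Agent.Results.P143.A0StronglyRayleigh
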